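import Crest.Agent.X212.Cg28.Stm

/-!
# X212 / Tor17 (helper17): the connection of the toric part
-/

set_option autoImplicit false
set_option linter.unusedSectionVars false

open Set Filter Topology Function Module
open scoped ContDiff Manifold Real
open Crest.Agent.R208 Crest.Agent.R208.FI
open Crest.Agent.R208.F hiding wd
open Crest.Agent.X212.Int54 hiding dt pr kap tp_pr pr_eq cAt_pr pm_pr kap_ne sigmaCompact
open Crest.Agent.X212.Line51 hiding tp Uni
open Crest.Agent.X212.Dr59 Crest.Agent.X212.Rod53 Crest.Agent.X212.Pj41 Crest.Agent.X212.Cg28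
open Crest.Agent.X212.Num57 (c2 c2_congr)

noncomputable section

namespace Crest.Agent.X212.Tor17

/-- steps between consecutive vertices -/
def St (n k : ℕ) (t : ℝ) : ℝ :=
  if k = 0 then 1 else if n ≤ k then 0 else Real.smoothTransition (3 * (t - k) - 4)

/-- the partition of unity in time -/
def ps (n k : ℕ) (t : ℝ) : ℝ := St n k t - St n (k + 1) t

variable {n k j : ℕ} {t : ℝ}

theorem cd_St (n k : ℕ) : ContDiff ℝ ∞ (St n k) := by
  unfold St
  split_ifs
  exacts [contDiff_const, contDiff_const, Real.smoothTransition.contDiff.comp (by fun_prop)]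

theorem cd_ps (n k : ℕ) : ContDiff ℝ ∞ (ps n k) := (cd_St n k).sub (cd_St n (k + 1))

theorem St_zero (hk : k ≠ 0) (h : n ≤ k ∨ t ≤ k + 4 / 3) : St n k t = 0 := by
  unfold St
  split_ifs with a b
  exacts [absurd a hk, rfl, Real.smoothTransition.zero_of_nonpos (by linarith [h.resolve_left b])]

theorem St_one (h : k = 0 ∨ k < n ∧ k + 5 / 3 ≤ t) : St n k t = 1 := by
  unfold St
  split_ifs with a b
  exacts [rfl, absurd b (h.resolve_left a).1.not_ge,
    Real.smoothTransition.one_of_one_le (by linarith [(h.resolve_left a).2])]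

theorem sum_ps (hn : 1 ≤ n) (t : ℝ) : ∑ j : Fin n, ps n j t = 1 := by
  rw [Fin.sum_univ_eq_sum_range (fun j => ps n j t) n]
  simp only [ps]
  rw [Finset.sum_range_sub' (fun j => St n j t), St_one (.inl rfl), St_zero (by omega) (.inl le_rfl), sub_zero]

theorem ps_lo (hk : k ≠ 0) (h : t ≤ k + 4 / 3) : ps n k t = 0 := by
  rw [ps, St_zero hk (.inr h), St_zero k.succ_ne_zero (.inr (by push_cast; linarith)), sub_zero]

theorem ps_hi (hk : k + 1 < n) (h : k + 8 / 3 ≤ t) : ps n k t = 0 := by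
  rw [ps, St_one (.inr ⟨by omega, by linarith⟩), St_one (.inr ⟨hk, by push_cast; linarith⟩), sub_self]

theorem ps_ne (hj : j < n) (hk : k ≠ j) (h : |t - (j + 2)| < 1 / 3) : ps n k t = 0 := by
  obtain ⟨a, b⟩ := abs_lt.1 h
  rcases lt_or_gt_of_ne hk with e | e
  · have : (k : ℝ) + 1 ≤ j := by exact_mod_cast e
    exact ps_hi (by omega) (by linarith)
  · have : (j : ℝ) + 1 ≤ k := by exact_mod_cast e
    exact ps_lo (by omega) (by linarith)

theorem ps_jv {L : ℕ} (c : Ch L) (hk : k < c.n) (t : ℝ) : ps c.n k =ᶠ[𝓝 t] 0 ∨ t ∈ c.jv (k + 2) := by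
  have hJ := Ioo_subset_Jv (c.uni (i := k + 2) (by omega) (by omega))
  push_cast at hJ
  rcases le_or_gt t (k + 1) with a | a
  · rcases eq_or_ne k 0 with rfl | e
    · refine .inr (Jv.of_left (c.lo_Jr (show t < 2 by simp at a; linarith)) ?_)
      simp at a ⊢
      linarith
    · exact .inl (eventually_of_mem (Iio_mem_nhds (show t < k + 4 / 3 by linarith)) fun s hs => ps_lo e hs.le)
  rcases lt_or_ge t (k + 3) with b | b
  · refine .inr ?_
    simp only [Ch.jv, Ch.v]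
    push_cast
    exact hJ ⟨by linarith, by linarith⟩
  rcases eq_or_lt_of_le (show k + 1 ≤ c.n from hk) with e | e
  · have e1 : (c.n : ℝ) = k + 1 := by exact_mod_cast e.symm
    have e2 : (k : ℤ) + 2 = c.n + 1 := by omega
    refine .inr (Jv.of_right ?_ (by push_cast; linarith))
    rw [e2, ← c.a_L]
    exact c.hi_Jr (show _ < t by linarith)
  · exact .inl (eventually_of_mem (Ioi_mem_nhds (show k + 8 / 3 < t by linarith)) fun s hs => ps_hi e hs.le)

/-- TOR -/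
theorem tor (hV : VtxStmt) : TorStmt := by
  intro B L c κ _ _ S hS
  have h1 : ∀ j : Fin c.n, (2 : ℤ) ≤ (j : ℕ) + 2 := fun j => by omega
  have h2 : ∀ j : Fin c.n, ((j : ℕ) : ℤ) + 2 ≤ c.n + 1 := fun j => by omega
  choose e β h hF using fun j : Fin c.n => frm2 B c _ (h1 j) (h2 j)
  choose R A hT hc hb using fun j : Fin c.n => hV B L c _ (h1 j) (h2 j) _ _ _ (hF j)
  set U := B.vu c (Ioo 1 L)
  have hU : IsOpen U := Bs.isOpen_vu isOpen_Ioo
  have hW : ∀ j : Fin c.n, IsOpen (B.vu c (c.jv ((j : ℕ) + 2)) ∩ U) := fun j =>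
    (Bs.isOpen_vu isOpen_interior).inter hU
  have hE := fun j : Fin c.n => Tn.tc (hW j) ((hT j).mono inter_subset_left) (hS.mono inter_subset_right)
  set ψ : Fin c.n → B.X c → ℝ := fun j x => ps c.n j (B.tm c x) with hψ
  have ct : Continuous (B.tm c) := B.T.continuous_time
  have sm : ∀ j y, FSm (𝓡 4) (ψ j) y := fun j y =>
    (cd_ps c.n j).contDiffAt.comp_contMDiffAt (B.T.contMDiff_time y)
  have su : ∀ x, ∑ j, ψ j x = 1 := fun x => sum_ps c.one _
  have alt : ∀ j, ∀ x ∈ U, ψ j =ᶠ[𝓝 x] 0 ∨ x ∈ B.vu c (c.jv ((j : ℕ) + 2)) ∩ U := fun j x hx =>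
    (ps_jv c j.2 (B.tm c x)).imp (fun k => k.comp_tendsto ct.continuousAt) fun k => ⟨⟨hx.1, k⟩, hx⟩
  set C := ∑ j, ψ j • tc (𝓡 4) (R j) (A j) S with hC
  have tn : Tn (𝓡 4) U S C := eqv_of_lc fun x hx => by
    refine ((Lc.of (hU.mem_nhds hx) fun V hV _ => hS.mono hV).and (Lc.fin fun j => ?_)).mono
      fun V hV k => eqv_mix hV k.1 k.1 (fun y _ => su y) k.2
    rcases alt j x hx with k | k
    · exact (Lc.of_ev k).mono fun _ _ => Or.inl
    · exact (((hE j).right (hW j)).lc ((hW j).mem_nhds k)).mono fun _ _ a => Or.inr ⟨fun y _ => sm j y, a⟩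
  have bs : ∀ x ∈ U, x ∈ off B.T c.v →
      (∀ j : Fin c.n, x ∉ B.bx c ((((j : ℕ) + 2 : ℤ) : ℝ) - 1 / 4) ((((j : ℕ) + 2 : ℤ) : ℝ) + 1 / 4) (1 / 2)) →
      B.Bc c S C x := fun x hx ho hn =>
    bsc_mix (Bs.pv hx.1 ho) (.of_forall su) fun j => (alt j x hx).imp_right fun k =>
      ⟨.of_forall (sm j), Bs.bf_tm.comp (cd_ps c.n j).contDiffAt,
        (hb j x k.1 ho (hn j)).of_eqv ((hE j).symm.lc ((hW j).mem_nhds k))⟩
  have hL : (c.n : ℝ) + 2 ≤ L := by exact_mod_cast c.le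
  have hj : ∀ j : Fin c.n, ((j : ℕ) : ℝ) + 1 ≤ c.n := fun j => by exact_mod_cast j.2
  have h0 : ∀ j : Fin c.n, (0 : ℝ) ≤ (j : ℕ) := fun j => Nat.cast_nonneg _
  refine ⟨C, tn, fun x hx ho hn => bs x hx ho fun j k => hn ⟨k.1, ⟨?_, ?_⟩, k.2.2⟩, ?_⟩
  · have := k.2.1.1; push_cast at this; linarith [h0 j]
  · have := k.2.1.2; push_cast at this; linarith [hj j]
  set lam : Fin c.n → ℝ := fun j => -2 * ((c.t ((j : ℕ) + 2 - 1))⁻¹ ^ 2 + (c.t ((j : ℕ) + 2))⁻¹ ^ 2)
  have pt : ∀ x ∈ U, Int54.tp E4 (c2 (𝓡 4) C (tr S S) x) = Int54.tp E4 ((∑ j, lam j • (e j * e j)) x) := by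
    intro x hx
    rw [Finset.sum_apply, map_sum]
    by_cases k : ∃ j : Fin c.n, |B.tm c x - ((j : ℕ) + 2)| < 1 / 3
    · obtain ⟨j, k⟩ := k
      have k0 : ∀ᶠ y in 𝓝 x, |B.tm c y - ((j : ℕ) + 2)| < 1 / 3 :=
        ((ct.sub continuous_const).abs.continuousAt).eventually_lt continuousAt_const k
      have k1 : ∀ y, |B.tm c y - ((j : ℕ) + 2)| < 1 / 3 → (∀ i, i ≠ j → ψ i y = 0) ∧ ψ j y = 1 := fun y hy => by
        have a : ∀ i, i ≠ j → ψ i y = 0 := fun i hi => ps_ne j.2 (fun e => hi (Fin.ext e)) hy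
        exact ⟨a, by rw [← su y, Finset.sum_eq_single j (fun i _ => a i) (by simp)]⟩
      have k2 : x ∈ B.vu c (c.jv ((j : ℕ) + 2)) ∩ U := (alt j x hx).resolve_left fun a => by
        simpa [(k1 x k).2] using a.self_of_nhds
      rw [c2_congr (C' := tc (𝓡 4) (R j) (A j) S) (T' := tr S S) (fun a b => k0.mono fun y hy => ?_) fun _ _ => rfl,
        (hE j).c2 (hW j) k2, hc j x k2.1, Finset.sum_eq_single j (fun i _ hi => ?_) (by simp)]
      · rfl
      · rw [Pi.smul_apply, map_smul, (hF i).out x fun a => ?_, smul_zero]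
        obtain ⟨a1, a2⟩ := a.2.1
        obtain ⟨b1, b2⟩ := abs_lt.1 k
        push_cast at a1 a2
        rcases lt_or_gt_of_ne (fun e => hi (Fin.ext e) : (i : ℕ) ≠ j) with e | e
        · have : ((i : ℕ) : ℝ) + 1 ≤ (j : ℕ) := by exact_mod_cast e
          linarith
        · have : ((j : ℕ) : ℝ) + 1 ≤ (i : ℕ) := by exact_mod_cast e
          linarith
      · rw [hC, mix_apply, Finset.sum_apply, Finset.sum_eq_single j (fun i _ hi => by simp [(k1 y hy).1 i hi])
          (by simp)]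
        simp [(k1 y hy).2]
    · have k0 : ∀ᶠ y in 𝓝 x, ∀ j : Fin c.n, 1 / 4 < |B.tm c y - ((j : ℕ) + 2)| := eventually_all.2 fun j =>
        continuousAt_const.eventually_lt (ct.sub continuous_const).abs.continuousAt
          (lt_of_lt_of_le (by norm_num) (not_lt.1 fun a => k ⟨j, a⟩))
      have k1 : ∀ y, (∀ j : Fin c.n, 1 / 4 < |B.tm c y - ((j : ℕ) + 2)|) → ∀ j : Fin c.n,
          y ∉ B.bx c ((((j : ℕ) + 2 : ℤ) : ℝ) - 1 / 4) ((((j : ℕ) + 2 : ℤ) : ℝ) + 1 / 4) (1 / 2) := fun y hy j a => by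
        obtain ⟨a1, a2⟩ := a.2.1
        push_cast at a1 a2
        exact (hy j).not_ge (abs_le.2 ⟨by linarith, by linarith⟩)
      rw [Bs.tp_of_off (tn.c.sm.c2 (tr_ms hS hS) hx) ?_, Finset.sum_eq_zero fun j _ => ?_]
      · rw [Pi.smul_apply, map_smul, (hF j).out x (k1 x k0.self_of_nhds j), smul_zero]
      · filter_upwards [k0, hU.mem_nhds hx] with y a b ho using Bs.bc_top (bs y b ho (k1 y a)) b.1 ho
  have hK := Bs.isCompact_bx (B := B) (c := c) (3 / 2) (L - 1 / 2) 1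
  have o := (B.ox c).ori
  rw [integOn_congr hK.measurableSet fun x hx => pt x ⟨hx.1, by linarith [hx.2.1.1], by linarith [hx.2.1.2]⟩,
    integOn_sum fun j _ => (o.intOn_compact (fun x => (((hF j).cs.cl.sm x trivial).mul
      ((hF j).cs.cl.sm x trivial)).of_le (by simp)) hK).smul _]
  have e1 : ∀ j : Fin c.n, integOn (𝓡 4) (B.O c) (lam j • (e j * e j)) (B.bx c (3 / 2) (L - 1 / 2) 1) =
      8 * π ^ 2 * (3 - (3 - c.t ((j : ℕ) + 2) / c.t ((j : ℕ) + 1) - c.t ((j : ℕ) + 1) / c.t ((j : ℕ) + 2))) := by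
    intro j
    rw [integOn_smul, ← integ_eq_integOn (s := B.bx c (3 / 2) (L - 1 / 2) 1) fun x hx => (hF j).out x fun a =>
      hx ⟨a.1, ⟨?_, ?_⟩, ?_⟩, (hF j).int]
    · have p1 : c.t ((j : ℕ) + 1) ≠ 0 := Int.cast_ne_zero.2 (c.pos _).ne'
      have p2 : c.t ((j : ℕ) + 2) ≠ 0 := Int.cast_ne_zero.2 (c.pos _).ne'
      simp only [lam, show ((j : ℕ) : ℤ) + 2 - 1 = (j : ℕ) + 1 by ring]
      field_simp
      ring
    · have := a.2.1.1; push_cast at this; linarith [h0 j]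
    · have := a.2.1.2; push_cast at this; linarith [hj j]
    · linarith [a.2.2]
  rw [Finset.sum_congr rfl fun j _ => e1 j, ← Finset.mul_sum, Finset.sum_sub_distrib, Ch.del,
    ← Fin.sum_univ_eq_sum_range (fun j : ℕ => 3 - c.t (j + 2) / c.t (j + 1) - c.t (j + 1) / c.t (j + 2))]
  simp [mul_comm]

end Crest.Agent.X212.Tor17
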